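import Vale.Agent.P057DP.Sd
import Vale.Agent.P057PC.Cub

/-!
Masses of all systems of copies with few vertices and bounded scalars.
-/

set_option linter.all false

open Matrix Finset Real
open Vale.Agent.P267.H775 Vale.Agent.P057G Vale.Agent.P057MA Vale.Agent.P057PC
open Vale.Agent.P057TP Vale.Agent.P057GH Vale.Agent.P057DP

namespace Vale.Agent.P057AL

variable {T : Tow} {C W : Type} [Fintype W] [DecidableEq W] {cl : W → C} {m s : ℕ} {N : ℝ}
  {Z : Sys T W Unit}

/-- the mass condition from the counting lemma -/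
theorem al_lf (hT : T.Ok s N) (hZ : Z.Ok) {d n n' : ℕ} {Λ L η : ℝ} (hd : m ≤ d + 1)
    (hL : T.tw.LF d n Λ η) (hn : n' ≤ n) (h0 : 0 < Λ) (hΛ : L * ((n + 1) * (s + 1) ^ s) ≤ Λ) :
    Al cl m Z n' L η := by
  intro X K S _ _ _ _ _ O a c hc ha hl
  have hp : (0 : ℝ) < (n + 1) * (s + 1) ^ s := by positivity
  have hb : L ≤ Λ / ((n + 1) * (s + 1) ^ s) := (le_div_iff₀ hp).2 hΛ
  have e : O.ms cl m Z K S a c =
      O.ms cl m Z K S (fun A o => min (a A o) (Λ / ((n + 1) * (s + 1) ^ s))) c := by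
    have e1 : sG T (O.cl cl K) S m a =
        sG T (O.cl cl K) S m fun A o => min (a A o) (Λ / ((n + 1) * (s + 1) ^ s)) := by
      ext l l'
      simp only [sG, of_apply, min_eq_left ((hl l).trans hb)]
    simp only [Ov.ms, P057DP.cub, e1]
  rw [e]
  exact lf_cub P057PC.cub hT (ok_pbo hZ _ _) (fun A o => lt_min (ha A o) (div_pos h0 hp)) hd hL
    (by rw [Fintype.card_sum]; exact hc.trans hn) fun _ _ => min_le_right _ _

theorem Al.mono {n n' : ℕ} {L L' η η' : ℝ} (h : Al cl m Z n L η) (hn : n' ≤ n) (hL : L' ≤ L)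
    (hη : η ≤ η') : Al cl m Z n' L' η' := fun X K S _ _ _ _ _ O a c hc ha hl q hq =>
  (h X K S O a c (hc.trans hn) ha (fun l => (hl l).trans hL) q hq).trans hη

/-- the mass condition from the exponential form of the lattice condition -/
theorem al_lfd (hT : T.Ok s N) (hZ : Z.Ok) {d n' : ℕ} {B L : ℝ} (hd : m ≤ d + 1)
    (hL : T.LFd d B B) (hn : (n' : ℝ) ≤ B) (hΛ : L * ((B + 1) * (s + 1) ^ s) ≤ exp B) :
    Al cl m Z n' L (exp (-B)) := by
  have hB : 0 ≤ B := (Nat.cast_nonneg _).trans hn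
  refine al_lf hT hZ hd hL (Nat.le_floor hn) (exp_pos _) ?_
  rcases le_total L 0 with h | h
  · exact (mul_nonpos_of_nonpos_of_nonneg h (by positivity)).trans (exp_pos _).le
  · refine le_trans ?_ hΛ
    gcongr
    exact Nat.floor_le hB

end Vale.Agent.P057AL
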